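import Vale.Agent.P221.T.H609.Fin
import Vale.Agent.P221.T.H769.DCb

/-!
# P221, part T (helper509): finite generation modulo `p` implies finite generation (algebra)
-/

open MvPolynomial
open Vale.Agent.P221.H509

namespace Vale.Agent.P221.T.H509

open H609 (rn wF finite_wF HK_rn)

variable {p : ℕ} [Fact p.Prime] {n : ℕ}

/-- homogeneous polynomials form a derived complete group (existence part) -/
theorem exists_poly_sol (D : ℤ) (a : ℕ → MvPolynomial (Fin n) ℤ_[p])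
    (ha : ∀ m, HK p D (rn p n (a m))) : ∃ b : ℕ → MvPolynomial (Fin n) ℤ_[p],
      (∀ m, HK p D (rn p n (b m))) ∧ ∀ m, b m = a m + p • b (m + 1) := by
  classical
  have h1 : ∀ μ : Fin n →₀ ℕ, ∃ β : ℕ → ℤ_[p], ∀ m, β m = coeff μ (a m) + p • β (m + 1) := by
    intro μ
    obtain ⟨β, hβ, -⟩ := (H769.uniq_iff_dc.1 (H769.uniq_padic (p := p))) fun m => coeff μ (a m)
    exact ⟨β, hβ⟩
  choose β hβ using h1
  have hc : ∀ m ν, coeff ν (∑ μ ∈ (finite_wF (p := p) (n := n) D).toFinset,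
      monomial μ (β μ m)) = if wF p ν = D then β ν m else 0 := by
    intro m ν
    rw [coeff_sum]
    simp only [coeff_monomial]
    rw [Finset.sum_ite_eq']
    simp only [Set.Finite.mem_toFinset, Set.mem_ofPred_eq]
  refine ⟨fun m => ∑ μ ∈ (finite_wF (p := p) (n := n) D).toFinset, monomial μ (β μ m),
    fun m => ?_, fun m => ?_⟩
  · rw [HK_rn]
    intro ν hν
    rw [hc] at hν
    by_contra h
    exact hν (if_neg h)
  · ext ν
    rw [coeff_add, coeff_smul, hc, hc]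
    by_cases h : wF p ν = D
    · rw [if_pos h, if_pos h]
      exact hβ ν m
    · rw [if_neg h, if_neg h, smul_zero, add_zero]
      by_contra h2
      exact h (HK_rn.1 (ha m) ν (Ne.symm h2))

variable {M : Type} [AddCommGroup M] [Module (KK p) M] {Mg : ℤ → AddSubgroup M}

/-- **generation modulo `p` implies generation** -/
theorem fg_of_mod (hsm : ∀ {k m : ℤ} {f : KK p} {y : M}, HK p m f → y ∈ Mg k → f • y ∈ Mg (k + m))
    (hdc : ∀ k, DC p (Mg k)) {r : ℕ} (e : Fin r → ℤ) (y : Fin r → M) (hy : ∀ i, y i ∈ Mg (e i))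
    (h : ∀ k, ∀ z ∈ Mg k, ∃ f : Fin r → MvPolynomial (Fin n) ℤ_[p],
      (∀ i, HK p (k - e i) (rn p n (f i))) ∧ ∃ z' ∈ Mg k, z = ∑ i, rn p n (f i) • y i + p • z')
    (k : ℤ) (z : M) (hz : z ∈ Mg k) : ∃ f : Fin r → MvPolynomial (Fin n) ℤ_[p],
      (∀ i, HK p (k - e i) (rn p n (f i))) ∧ z = ∑ i, rn p n (f i) • y i := by
  choose f hf z' hz' hzz using h k
  let x : ℕ → Mg k := fun m => Nat.rec ⟨z, hz⟩ (fun _ y => ⟨z' y.1 y.2, hz' y.1 y.2⟩) m
  have hx : ∀ m, (x m).1 = ∑ i, rn p n (f (x m).1 (x m).2 i) • y i + p • (x (m + 1)).1 :=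
    fun m => hzz (x m).1 (x m).2
  have h1 : ∀ i, ∃ b : ℕ → MvPolynomial (Fin n) ℤ_[p], (∀ m, HK p (k - e i) (rn p n (b m))) ∧
      ∀ m, b m = f (x m).1 (x m).2 i + p • b (m + 1) := fun i =>
    exists_poly_sol (k - e i) (fun m => f (x m).1 (x m).2 i) fun m => hf _ _ i
  choose b hb1 hb2 using h1
  have hmem : ∀ m, ∑ i, rn p n (b i m) • y i ∈ Mg k := fun m =>
    (Mg k).sum_mem fun i _ => by
      have := hsm (hb1 i m) (hy i)
      rwa [show e i + (k - e i) = k by ring] at this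
  have key : ∀ m, (⟨(x m).1 - ∑ i, rn p n (b i m) • y i, (Mg k).sub_mem (x m).2 (hmem m)⟩ : Mg k) =
      p • (⟨(x (m + 1)).1 - ∑ i, rn p n (b i (m + 1)) • y i,
        (Mg k).sub_mem (x (m + 1)).2 (hmem (m + 1))⟩ : Mg k) := by
    intro m
    apply Subtype.ext
    change (x m).1 - ∑ i, rn p n (b i m) • y i =
      p • ((x (m + 1)).1 - ∑ i, rn p n (b i (m + 1)) • y i)
    have h2 : ∑ i, rn p n (b i m) • y i = ∑ i, rn p n (f (x m).1 (x m).2 i) • y i +
        p • ∑ i, rn p n (b i (m + 1)) • y i := by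
      rw [Finset.smul_sum, ← Finset.sum_add_distrib]
      refine Finset.sum_congr rfl fun i _ => ?_
      rw [hb2 i m, map_add, map_nsmul, add_smul, smul_assoc]
    have h3 := hx m
    rw [h2, smul_sub, sub_eq_iff_eq_add]
    refine h3.trans ?_
    abel
  have h0 := (hdc k).eq_zero_of_div
    (fun w => ∃ m, w = (⟨(x m).1 - ∑ i, rn p n (b i m) • y i, (Mg k).sub_mem (x m).2 (hmem m)⟩ : Mg k))
    (by
      rintro _ ⟨m, rfl⟩
      exact ⟨_, ⟨m + 1, rfl⟩, key m⟩) _ ⟨0, rfl⟩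
  refine ⟨fun i => b i 0, fun i => hb1 i 0, ?_⟩
  have h3 := congrArg Subtype.val h0
  exact sub_eq_zero.1 h3

end Vale.Agent.P221.T.H509
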