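import Vale.Agent.P221.T.H509.KKmod
import Vale.Agent.P221.T.BPS
import Vale.Agent.P221.H509.DCHom
import Vale.Agent.P221.T.H769.DCb

/-!
# P221, part T (helper509): the homotopy of a `p`-complete module over the Brown-Peterson monoid

* `PComm v` : the classes `v i` commute on all modules;
* `kkT v hv M hY : KK p →+* AddMonoid.End (PiM Y)` : the field `kk` of `BPS`;
* `kkT_v`, `kkT_C`, `kkT_C_of`, `kkT_lin`.
-/

open CategoryTheory MonoidalCategory MonObj Limits Pretriangulated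
open Vale.Agent.P251.T Vale.Agent.P251.M Vale.Agent.P251.S
open Vale.Agent.P221.H509

set_option linter.unusedSectionVars false
set_option linter.unusedVariables false
set_option linter.style.haveILetI false

universe u

namespace Vale.Agent.P221.T.H509

variable {𝒯 : Type u} [Category.{0} 𝒯] [Preadditive 𝒯] [HasZeroObject 𝒯]
    [HasShift 𝒯 ℤ] [∀ n : ℤ, (shiftFunctor 𝒯 n).Additive] [Pretriangulated 𝒯] [IsTriangulated 𝒯]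
    [MonoidalCategory 𝒯] [SymmetricCategory 𝒯] [TensorTriangulated 𝒯] [MonoidalClosed 𝒯]
    [HasCoproducts.{0} 𝒯] [HasProducts.{0} 𝒯] [StableCat 𝒯]

theorem dc_pi {p : ℕ} {Y : 𝒯} (hY : H395.PComplete p Y) (W : 𝒯) : DC p (W ⟶ Y) := by
  obtain ⟨C, i, δ, hC⟩ := distinguished_cocone_triangle ((p : ℤ) • 𝟙 (𝟙_ 𝒯))
  exact dc_hom hC hY W

variable {p : ℕ} [Fact p.Prime] {R : 𝒯} [MonObj R] (v : ∀ i : ℕ, (𝟙_ 𝒯)⟦sV p (i + 1)⟧ ⟶ R)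

/-- the classes `v i` commute on all modules -/
def PComm : Prop :=
  ∀ {Y : 𝒯} (M : ModStr R Y) (i j : ℕ) {k k₁ k₂ k' : ℤ} (h₁ : k + sV p (i + 1) = k₁)
    (h₁' : k₁ + sV p (j + 1) = k') (h₂ : k + sV p (j + 1) = k₂) (h₂' : k₂ + sV p (i + 1) = k')
    (y : (𝟙_ 𝒯)⟦k⟧ ⟶ Y), mul M h₁' (v j) (mul M h₁ (v i) y) = mul M h₂' (v i) (mul M h₂ (v j) y)

/-- the `ℤ_p`-module structure -/
@[instance_reducible]
noncomputable def zpm {Y : 𝒯} (hY : H395.PComplete p Y) (W : 𝒯) : Module ℤ_[p] (W ⟶ Y) :=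
  (dc_pi hY W).module

theorem mul_zero_right {Y : 𝒯} (M : ModStr R Y) {m k k' : ℤ} (h : k + m = k')
    (a : (𝟙_ 𝒯)⟦m⟧ ⟶ R) : mul M h a (0 : (𝟙_ 𝒯)⟦k⟧ ⟶ Y) = 0 := by
  have h1 := mul_add M h a (0 : (𝟙_ 𝒯)⟦k⟧ ⟶ Y) 0
  rw [add_zero] at h1
  exact left_eq_add.1 h1

variable {v}

/-- the operators -/
noncomputable def opsT (hv : PComm v) {Y : 𝒯} (M : ModStr R Y) (hY : H395.PComplete p Y) :
    letI : ∀ k : ℤ, Module ℤ_[p] ((𝟙_ 𝒯)⟦k⟧ ⟶ Y) := fun k => zpm hY _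
    Ops ℤ_[p] (fun k : ℤ => ((𝟙_ 𝒯)⟦k⟧ ⟶ Y)) (fun i => sV p (i + 1)) :=
  letI : ∀ k : ℤ, Module ℤ_[p] ((𝟙_ 𝒯)⟦k⟧ ⟶ Y) := fun k => zpm hY _
  { v := fun i {k k'} h => H769.linOfUniq (H769.uniq_of_dc (dc_pi hY _))
      { toFun := fun y => mul M h (v i) y
        map_zero' := mul_zero_right M h (v i)
        map_add' := fun y z => mul_add M h (v i) y z }
    comm := fun i j {k k₁ k₂ k'} h₁ h₁' h₂ h₂' y => hv M i j h₁ h₁' h₂ h₂' y }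

/-- **the action of `ℤ_p[v_1, v_2, …]` on `π_* Y`** -/
noncomputable def kkT (hv : PComm v) {Y : 𝒯} (M : ModStr R Y) (hY : H395.PComplete p Y) :
    KK p →+* AddMonoid.End (PiM Y) :=
  letI : ∀ k : ℤ, Module ℤ_[p] ((𝟙_ 𝒯)⟦k⟧ ⟶ Y) := fun k => zpm hY _
  (opsT hv M hY).kk

theorem kkT_v (hv : PComm v) {Y : 𝒯} (M : ModStr R Y) (hY : H395.PComplete p Y) (i : ℕ)
    {k k' : ℤ} (h : k + sV p (i + 1) = k') (y : (𝟙_ 𝒯)⟦k⟧ ⟶ Y) :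
    kkT hv M hY (MvPolynomial.X i) (PiM.of Y k y) = PiM.of Y k' (mul M h (v i) y) :=
  letI : ∀ k : ℤ, Module ℤ_[p] ((𝟙_ 𝒯)⟦k⟧ ⟶ Y) := fun k => zpm hY _
  (opsT hv M hY).kk_X_of i h y

/-- `ℤ_p` acts by any `ℤ_p`-module structure of `π_k Y` -/
theorem kkT_C_of (hv : PComm v) {Y : 𝒯} (M : ModStr R Y) (hY : H395.PComplete p Y) (a : ℤ_[p])
    {k : ℤ} [Module ℤ_[p] ((𝟙_ 𝒯)⟦k⟧ ⟶ Y)] (y : (𝟙_ 𝒯)⟦k⟧ ⟶ Y) :
    kkT hv M hY (MvPolynomial.C a) (PiM.of Y k y) = PiM.of Y k (a • y) := by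
  rw [H769.smul_eq_sm (dc_pi hY _) a y]
  exact letI : ∀ k : ℤ, Module ℤ_[p] ((𝟙_ 𝒯)⟦k⟧ ⟶ Y) := fun k => zpm hY _
    (opsT hv M hY).kk_C_of a y

theorem kkT_C (hv : PComm v) {Y : 𝒯} (M : ModStr R Y) (hY : H395.PComplete p Y) (a : ℤ_[p])
    {k : ℤ} (y : (𝟙_ 𝒯)⟦k⟧ ⟶ Y) :
    ∃ z : (𝟙_ 𝒯)⟦k⟧ ⟶ Y, kkT hv M hY (MvPolynomial.C a) (PiM.of Y k y) = PiM.of Y k z :=
  ⟨_, letI : ∀ k : ℤ, Module ℤ_[p] ((𝟙_ 𝒯)⟦k⟧ ⟶ Y) := fun k => zpm hY _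
    (opsT hv M hY).kk_C_of a y⟩

theorem PiM.map_of {Y Z : 𝒯} {j k k' : ℤ} (h : j + k = k') (f : Y⟦j⟧ ⟶ Z)
    (y : (𝟙_ 𝒯)⟦k⟧ ⟶ Y) : PiM.map f (PiM.of Y k y) = PiM.of Z k' (gc h y f) := by
  subst h
  unfold PiM.map
  rw [DirectSum.toAddMonoid_of]
  rfl

/-- **linear maps of degree `j` induce linear maps** -/
theorem kkT_lin (hv : PComm v) {Y Z : 𝒯} (M : ModStr R Y) (hY : H395.PComplete p Y)
    (N : ModStr R Z) (hZ : H395.PComplete p Z) {j : ℤ} (f : Y⟦j⟧ ⟶ Z) (hf : IsLin M N f)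
    (a : KK p) (y : PiM Y) : PiM.map f (kkT hv M hY a y) = kkT hv N hZ a (PiM.map f y) := by
  letI iY : ∀ k : ℤ, Module ℤ_[p] ((𝟙_ 𝒯)⟦k⟧ ⟶ Y) := fun k => zpm hY _
  letI iZ : ∀ k : ℤ, Module ℤ_[p] ((𝟙_ 𝒯)⟦k⟧ ⟶ Z) := fun k => zpm hZ _
  refine (opsT hv M hY).map_kk (opsT hv N hZ) (PiM.map f) (fun a k y => ?_) (fun i k y => ?_) a y
  · have h1 : gc (rfl : j + k = j + k) (a • y) f = a • gc (rfl : j + k = j + k) y f :=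
      H769.map_smul_of_uniq (H769.uniq_of_dc (dc_pi hZ _))
        (AddMonoidHom.mk' (fun y : (𝟙_ 𝒯)⟦k⟧ ⟶ Y => gc (rfl : j + k = j + k) y f)
          fun y z => gc_add_left _ y z f) a y
    refine (PiM.map_of rfl f (a • y)).trans ?_
    rw [h1]
    refine ((DirectSum.lof ℤ_[p] ℤ (fun k : ℤ => ((𝟙_ 𝒯)⟦k⟧ ⟶ Z)) (j + k)).map_smul a
      (gc rfl y f)).trans ?_
    congr 1
    exact (PiM.map_of rfl f y).symm
  · have h1 := kkT_v hv M hY i (rfl : k + sV p (i + 1) = k + sV p (i + 1)) y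
    have h2 := kkT_v hv N hZ i (rfl : (j + k) + sV p (i + 1) = (j + k) + sV p (i + 1))
      (gc rfl y f)
    refine (congrArg (PiM.map f) h1).trans ?_
    rw [PiM.map_of (add_assoc j k _).symm f]
    refine Eq.trans ?_ ((congrArg (kkT hv N hZ (MvPolynomial.X i)) (PiM.map_of rfl f y)).trans
      h2).symm
    congr 1
    exact (mul_gc_lin hf rfl rfl rfl (add_assoc j k _).symm (v i) y).symm

end Vale.Agent.P221.T.H509
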