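import Vale.Agent.P221.T.Form
import Vale.Agent.P221.T.H817.Lin
import Vale.Agent.P221.T.H509.KKT
import Vale.Agent.P221.T.H509.FG

/-!
# P221, part T (helper509): finite generation of `π_* Y` modulo `p`

For `b : BPS p R P W` and a `p`-complete `R`-module `Y`:

* `mul_eq` : the product as `S^{m+k} ≅ S^m ⊗ S^k ⟶ R ⊗ Y ⟶ Y`;
* `BPS.sphere_inj` : `S^l ≅ S^l'` implies `l = l'`; `BPS.exists_unit` : endomorphisms of `S^k` act
  on `π_k Y` as integers modulo `p`;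
* `BPS.QQ M hY e y k z` : `z` is a `ℤ_p[v_1, …, v_n]`-linear combination of the `y i` modulo `p`;
* `BPS.fg_of_QQ` : if all `z` are, then `π_* Y` is finitely generated (the hypothesis of `SpecS`).
-/

open CategoryTheory MonoidalCategory MonObj Limits Pretriangulated
open MvPolynomial (C coeff monomial rename)
open Vale.Agent.P251.T Vale.Agent.P251.M Vale.Agent.P251.S
open Vale.Agent.P221.H509

set_option linter.unusedSectionVars false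

universe u

namespace Vale.Agent.P221.T

variable {𝒯 : Type u} [Category.{0} 𝒯] [Preadditive 𝒯] [HasZeroObject 𝒯]
    [HasShift 𝒯 ℤ] [∀ n : ℤ, (shiftFunctor 𝒯 n).Additive] [Pretriangulated 𝒯] [IsTriangulated 𝒯]
    [MonoidalCategory 𝒯] [SymmetricCategory 𝒯] [TensorTriangulated 𝒯] [MonoidalClosed 𝒯]
    [HasCoproducts.{0} 𝒯] [HasProducts.{0} 𝒯] [StableCat 𝒯]

section mul

variable {R : 𝒯} [MonObj R] {Y : 𝒯}

/-- `S^{m+k} ≅ S^m ⊗ S^k` -/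
noncomputable def sphAdd {m k k' : ℤ} (h : k + m = k') :
    (𝟙_ 𝒯)⟦k'⟧ ≅ (𝟙_ 𝒯)⟦m⟧ ⊗ (𝟙_ 𝒯)⟦k⟧ :=
  (shiftFunctorAdd' 𝒯 m k k' (by omega)).app (𝟙_ 𝒯) ≪≫ (tensorSph k ((𝟙_ 𝒯)⟦m⟧)).symm

theorem mul_eq (M : ModStr R Y) {m k k' : ℤ} (h : k + m = k') (v : (𝟙_ 𝒯)⟦m⟧ ⟶ R)
    (y : (𝟙_ 𝒯)⟦k⟧ ⟶ Y) : mul M h v y = (sphAdd h).hom ≫ (v ⊗ₘ y) ≫ M.act := by
  have h1 : hat M y = (tensorSph k R).inv ≫ (R ◁ y) ≫ M.act := by
    unfold hat ext fm tensorSph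
    simp only [Iso.trans_inv, Category.assoc]
    rfl
  have h2 : v⟦k⟧' ≫ (tensorSph k R).inv = (tensorSph k ((𝟙_ 𝒯)⟦m⟧)).inv ≫ (v ▷ ((𝟙_ 𝒯)⟦k⟧)) := by
    rw [Iso.comp_inv_eq, Category.assoc, tensorSph_naturality, Iso.inv_hom_id_assoc]
  unfold mul gc
  rw [h1, reassoc_of% h2, tensorHom_def]
  simp only [sphAdd, Iso.trans_hom, Iso.symm_hom, Category.assoc]
  rfl

end mul

theorem H509.HK_zero {p : ℕ} [Fact p.Prime] {f : KK p} (hf : HK p 0 f) : ∃ a, f = C a := by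
  refine ⟨coeff 0 f, ?_⟩
  ext E
  rw [MvPolynomial.coeff_C]
  split_ifs with h
  · rw [h]
  · by_contra hne
    have h1 : Finsupp.weight (fun i => sV p (i + 1)) E = 0 := hf hne
    apply h
    have h2 : E = 0 := by
      by_contra h3
      obtain ⟨i, hi⟩ := Finsupp.ne_iff.1 h3
      have h4 : Finsupp.weight (fun i => sV p (i + 1)) E = _ := Finsupp.weight_apply _ _
      rw [h1] at h4
      have h5 : (0 : ℤ) < E.sum fun i c => c • sV p (i + 1) := by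
        have h7 : ∀ i, 0 < sV p (i + 1) := fun i => by
          have := H609.sV_pos (p := p) i
          omega
        refine Finset.sum_pos' (fun i _ => nsmul_nonneg (h7 i).le _) ⟨i, ?_, ?_⟩
        · exact Finsupp.mem_support_iff.2 hi
        · have := h7 i
          change 0 < E i • sV p (i + 1)
          rw [nsmul_eq_mul]
          have h8 : (0 : ℤ) < (E i : ℤ) := by
            have : E i ≠ 0 := hi
            omega
          positivity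
      omega
    exact h2.symm

theorem H509.HK_neg {p : ℕ} [Fact p.Prime] {k : ℤ} (hk : k < 0) {f : KK p} (hf : HK p k f) :
    f = 0 := by
  by_contra hne
  obtain ⟨E, hE⟩ := MvPolynomial.ne_zero_iff.1 hne
  have h1 : Finsupp.weight (fun i => sV p (i + 1)) E = k := hf hE
  have h2 : (0 : ℤ) ≤ Finsupp.weight (fun i => sV p (i + 1)) E := by
    rw [Finsupp.weight_apply]
    refine Finset.sum_nonneg fun i _ => nsmul_nonneg ?_ _
    have := H609.sV_pos (p := p) i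
    omega
  omega

namespace BPS

variable {p : ℕ} [Fact p.Prime] {R P W : 𝒯} [MonObj R] [IsCommMonObj R] (b : BPS p R P W)

theorem unit_ne_zero : b.unit ≠ 0 := by
  intro h
  obtain ⟨f, -, hf⟩ := b.free 0 (zr 𝒯 ≫ η[R] ≫ b.c)
  have h1 := hf 1 ⟨MvPolynomial.isWeightedHomogeneous_one _ _, by rw [map_one]; rfl⟩
  have h2 := hf 0 ⟨MvPolynomial.isWeightedHomogeneous_zero _ _ _, by
    rw [map_zero]
    exact h⟩
  exact one_ne_zero (h1.trans h2.symm)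

theorem unit_ne_zero' : η[R] ≫ b.c ≠ 0 := by
  intro h
  apply b.unit_ne_zero
  unfold unit
  rw [h, comp_zero, map_zero]

include b in
theorem pi_neg {k : ℤ} (hk : k < 0) (z : (𝟙_ 𝒯)⟦k⟧ ⟶ P) : z = 0 := by
  obtain ⟨f, ⟨hf, hz⟩, -⟩ := b.free k z
  rw [H509.HK_neg hk hf, map_zero] at hz
  exact PiM.of_injective P k (hz.trans (map_zero (PiM.of P k)).symm)

include b in
theorem sphere_inj_aux {l l' : ℤ} (h : l < l') (e : (𝟙_ 𝒯)⟦l⟧ ≅ (𝟙_ 𝒯)⟦l'⟧) : False := by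
  -- `𝟙⟦l - l'⟧ ≅ 𝟙`
  have i : (𝟙_ 𝒯)⟦l - l'⟧ ≅ 𝟙_ 𝒯 :=
    (shiftFunctorAdd' 𝒯 l (-l') (l - l') (by omega)).app (𝟙_ 𝒯) ≪≫
      (shiftFunctor 𝒯 (-l')).mapIso e ≪≫
        ((shiftFunctorAdd' 𝒯 l' (-l') 0 (by omega)).app (𝟙_ 𝒯)).symm ≪≫
          (shiftFunctorZero 𝒯 ℤ).app (𝟙_ 𝒯)
  have h1 := b.pi_neg (by omega : l - l' < 0) (i.hom ≫ η[R] ≫ b.c)
  apply b.unit_ne_zero'
  rw [← cancel_epi i.hom, h1, comp_zero]

include b in
theorem sphere_inj {l l' : ℤ} (e : (𝟙_ 𝒯)⟦l⟧ ≅ (𝟙_ 𝒯)⟦l'⟧) : l = l' := by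
  rcases lt_trichotomy l l' with h | h | h
  · exact (b.sphere_inj_aux h e).elim
  · exact h
  · exact (b.sphere_inj_aux h e.symm).elim

include b in
/-- endomorphisms of the unit are integers modulo `p` in `π_0 P` -/
theorem exists_unit0 (u : 𝟙_ 𝒯 ⟶ 𝟙_ 𝒯) : ∃ (n : ℤ) (w : 𝟙_ 𝒯 ⟶ P),
    u ≫ η[R] ≫ b.c = n • (η[R] ≫ b.c) + p • w := by
  obtain ⟨f, ⟨hf, hz⟩, -⟩ := b.free 0 (zr 𝒯 ≫ u ≫ η[R] ≫ b.c)
  obtain ⟨a, rfl⟩ := H509.HK_zero hf
  have ha := DC.eq_dg_tl a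
  obtain ⟨z, hz'⟩ := b.kk_C b.MP b.cP (DC.tl a) (zr 𝒯 ≫ η[R] ≫ b.c)
  rw [ha, map_add, map_mul] at hz
  have h1 : b.kk b.MP b.cP (C ((DC.dg a : ℤ) : ℤ_[p])) = (DC.dg a : AddMonoid.End (PiM P)) := by
    rw [map_intCast, map_intCast]
  have h2 : b.kk b.MP b.cP (C ((p : ℕ) : ℤ_[p])) = (p : AddMonoid.End (PiM P)) := by
    rw [map_natCast, map_natCast]
  rw [map_add, map_mul, h1, h2] at hz
  have h3 : PiM.of P 0 (zr 𝒯 ≫ u ≫ η[R] ≫ b.c) =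
      (DC.dg a) • PiM.of P 0 (zr 𝒯 ≫ η[R] ≫ b.c) + p • PiM.of P 0 z := by
    rw [hz, ← hz']
    rfl
  rw [← map_zsmul, ← map_nsmul, ← map_add] at h3
  have h4 := PiM.of_injective P 0 h3
  refine ⟨DC.dg a, (shiftFunctorZero 𝒯 ℤ).inv.app (𝟙_ 𝒯) ≫ z, ?_⟩
  have h5 : (shiftFunctorZero 𝒯 ℤ).inv.app (𝟙_ 𝒯) ≫ zr 𝒯 = 𝟙 _ := Iso.inv_hom_id_app _ _
  have h6 := congrArg (fun t => (shiftFunctorZero 𝒯 ℤ).inv.app (𝟙_ 𝒯) ≫ t) h4
  simp only [Preadditive.comp_add, Preadditive.comp_zsmul, Preadditive.comp_nsmul,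
    reassoc_of% h5] at h6
  exact h6

include b in
/-- endomorphisms of spheres act as integers modulo `p` -/
theorem exists_unit {Y : 𝒯} (M : ModStr R Y) (hY : H395.PComplete p Y) {k : ℤ}
    (u : (𝟙_ 𝒯)⟦k⟧ ⟶ (𝟙_ 𝒯)⟦k⟧) (z : (𝟙_ 𝒯)⟦k⟧ ⟶ Y) :
    ∃ (n : ℤ) (z' : (𝟙_ 𝒯)⟦k⟧ ⟶ Y), u ≫ z = n • z + p • z' := by
  obtain ⟨u0, rfl⟩ := (shiftFunctor 𝒯 k).map_surjective u
  obtain ⟨n, w, hw⟩ := b.exists_unit0 u0
  have h1 : (η[R] ≫ b.c)⟦k⟧' ≫ b.cext hY (hat M z) = z := by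
    rw [Functor.map_comp, Category.assoc, b.c_cext, unit_hat]
  refine ⟨n, w⟦k⟧' ≫ b.cext hY (hat M z), ?_⟩
  conv_lhs => rw [← h1, ← Functor.map_comp_assoc, hw]
  rw [Functor.map_add, Functor.map_zsmul, Functor.map_nsmul, Preadditive.add_comp,
    Preadditive.zsmul_comp, Preadditive.nsmul_comp, h1]

/-! ### Homogeneous elements -/

theorem kk_C_mem {Y : 𝒯} (M : ModStr R Y) (hY : H395.PComplete p Y) (a : ℤ_[p]) {k : ℤ}
    {z : PiM Y} (hz : z ∈ PiM.gr Y k) : b.kk M hY (C a) z ∈ PiM.gr Y k := by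
  obtain ⟨z, rfl⟩ := hz
  obtain ⟨w, hw⟩ := b.kk_C M hY a z
  rw [hw]
  exact ⟨w, rfl⟩

theorem kk_X_mem {Y : 𝒯} (M : ModStr R Y) (hY : H395.PComplete p Y) (i : ℕ) {k : ℤ}
    {z : PiM Y} (hz : z ∈ PiM.gr Y k) :
    b.kk M hY (MvPolynomial.X i) z ∈ PiM.gr Y (k + sV p (i + 1)) := by
  obtain ⟨z, rfl⟩ := hz
  rw [b.kk_v M hY i rfl z]
  exact ⟨_, rfl⟩

theorem kk_monomial_mem {Y : 𝒯} (M : ModStr R Y) (hY : H395.PComplete p Y) (E : ℕ →₀ ℕ) :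
    ∀ (a : ℤ_[p]) (k : ℤ) (z : PiM Y), z ∈ PiM.gr Y k → b.kk M hY (monomial E a) z ∈
      PiM.gr Y (k + Finsupp.weight (fun i => sV p (i + 1)) E) := by
  induction E using Finsupp.induction_linear with
  | zero =>
    intro a k z hz
    rw [map_zero, add_zero]
    exact b.kk_C_mem M hY a hz
  | add E F hE hF =>
    intro a k z hz
    have h1 : (monomial (E + F) a : KK p) = monomial E a * monomial F 1 := by
      rw [MvPolynomial.monomial_mul, _root_.mul_one]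
    rw [h1, map_mul, map_add, add_comm (Finsupp.weight _ E), ← add_assoc]
    exact hE a _ _ (hF 1 k z hz)
  | single i c =>
    induction c with
    | zero =>
      intro a k z hz
      rw [Finsupp.single_zero, map_zero, add_zero]
      exact b.kk_C_mem M hY a hz
    | succ c ih =>
      intro a k z hz
      have h1 : (monomial (Finsupp.single i (c + 1)) a : KK p) =
          MvPolynomial.X i * monomial (Finsupp.single i c) a := by
        rw [MvPolynomial.X, MvPolynomial.monomial_mul, _root_.one_mul, ← Finsupp.single_add,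
          add_comm 1 c]
      rw [h1, map_mul]
      have h2 := b.kk_X_mem M hY i (ih a k z hz)
      rwa [show k + Finsupp.weight (fun i => sV p (i + 1)) (Finsupp.single i c) + sV p (i + 1) =
        k + Finsupp.weight (fun i => sV p (i + 1)) (Finsupp.single i (c + 1)) by
          rw [Finsupp.weight_single, Finsupp.weight_single, succ_nsmul]
          ring] at h2

theorem kk_mem {Y : 𝒯} (M : ModStr R Y) (hY : H395.PComplete p Y) {k m : ℤ} {f : KK p}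
    (hf : HK p m f) {z : PiM Y} (hz : z ∈ PiM.gr Y k) : b.kk M hY f z ∈ PiM.gr Y (k + m) := by
  have h1 : b.kk M hY f z = ∑ E ∈ f.support, b.kk M hY (monomial E (coeff E f)) z := by
    conv_lhs => rw [← MvPolynomial.support_sum_monomial_coeff f, map_sum]
    exact AddMonoidHom.finsetSum_apply _ _ _
  rw [h1]
  refine (PiM.gr Y (k + m)).sum_mem fun E hE => ?_
  rw [← hf (MvPolynomial.mem_support_iff.1 hE)]
  exact b.kk_monomial_mem M hY E _ _ z hz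

theorem dc_gr {Y : 𝒯} (hY : H395.PComplete p Y) (k : ℤ) : DC p (PiM.gr Y k) := by
  have h1 : H769.Uniq p ((𝟙_ 𝒯)⟦k⟧ ⟶ Y) := H769.uniq_of_dc (H509.dc_pi hY _)
  exact H769.uniq_iff_dc.1 (h1.of_equiv ((PiM.of Y k).ofInjective (PiM.of_injective Y k)))

/-! ### Linear combinations modulo `p` -/

section QQ

variable {n : ℕ} {Y : 𝒯} (M : ModStr R Y) (hY : H395.PComplete p Y) {r : ℕ} (e : Fin r → ℤ)
  (y : ∀ i : Fin r, (𝟙_ 𝒯)⟦e i⟧ ⟶ Y)

/-- `z` is a `ℤ_p[v_1, …, v_n]`-linear combination of the `y i` modulo `p` -/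
def QQ (n : ℕ) (k : ℤ) (z : (𝟙_ 𝒯)⟦k⟧ ⟶ Y) : Prop :=
  ∃ (f : Fin r → MvPolynomial (Fin n) ℤ_[p]) (z' : (𝟙_ 𝒯)⟦k⟧ ⟶ Y),
    (∀ i, HK p (k - e i) (H609.rn p n (f i))) ∧ PiM.of Y k z =
      ∑ i, b.kk M hY (H609.rn p n (f i)) (PiM.of Y (e i) (y i)) + p • PiM.of Y k z'

theorem QQ.p_smul (k : ℤ) (z : (𝟙_ 𝒯)⟦k⟧ ⟶ Y) : b.QQ M hY e y n k (p • z) := by
  refine ⟨0, z, fun i => ?_, ?_⟩
  · rw [Pi.zero_apply, map_zero]
    exact MvPolynomial.isWeightedHomogeneous_zero _ _ _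
  · rw [map_nsmul]
    simp

theorem QQ.zero (k : ℤ) : b.QQ M hY e y n k 0 := by
  have := QQ.p_smul b (n := n) M hY e y k 0
  rwa [smul_zero] at this

variable {M hY e y}

theorem QQ.add {k : ℤ} {z w : (𝟙_ 𝒯)⟦k⟧ ⟶ Y} (hz : b.QQ M hY e y n k z)
    (hw : b.QQ M hY e y n k w) : b.QQ M hY e y n k (z + w) := by
  obtain ⟨f, z', hf, hz⟩ := hz
  obtain ⟨g, w', hg, hw⟩ := hw
  refine ⟨f + g, z' + w', fun i => ?_, ?_⟩
  · rw [Pi.add_apply, map_add]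
    exact (hf i).add (hg i)
  · rw [map_add, hz, hw, map_add, smul_add]
    have h1 : ∑ i, b.kk M hY (H609.rn p n ((f + g) i)) (PiM.of Y (e i) (y i)) =
        ∑ i, b.kk M hY (H609.rn p n (f i)) (PiM.of Y (e i) (y i)) +
          ∑ i, b.kk M hY (H609.rn p n (g i)) (PiM.of Y (e i) (y i)) := by
      rw [← Finset.sum_add_distrib]
      refine Finset.sum_congr rfl fun i _ => ?_
      rw [Pi.add_apply, map_add, map_add]
      rfl
    rw [h1]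
    abel

theorem QQ.neg {k : ℤ} {z : (𝟙_ 𝒯)⟦k⟧ ⟶ Y} (hz : b.QQ M hY e y n k z) :
    b.QQ M hY e y n k (-z) := by
  obtain ⟨f, z', hf, hz⟩ := hz
  refine ⟨-f, -z', fun i => ?_, ?_⟩
  · rw [Pi.neg_apply, map_neg]
    intro d hd
    rw [MvPolynomial.coeff_neg, neg_ne_zero] at hd
    exact hf i hd
  · rw [map_neg, hz, map_neg, smul_neg, neg_add, ← Finset.sum_neg_distrib]
    congr 1
    refine Finset.sum_congr rfl fun i _ => ?_
    rw [Pi.neg_apply, map_neg, map_neg]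
    rfl

theorem QQ.zsmul {k : ℤ} {z : (𝟙_ 𝒯)⟦k⟧ ⟶ Y} (hz : b.QQ M hY e y n k z) (c : ℤ) :
    b.QQ M hY e y n k (c • z) := by
  induction c using Int.induction_on with
  | zero =>
    rw [zero_smul]
    exact QQ.zero b M hY e y k
  | succ c ih =>
    rw [add_smul, one_smul]
    exact QQ.add b ih hz
  | pred c ih =>
    rw [sub_smul, one_smul, sub_eq_add_neg]
    exact QQ.add b ih (QQ.neg b hz)

theorem QQ.base (i : Fin r) : b.QQ M hY e y n (e i) (y i) := by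
  classical
  refine ⟨Pi.single i 1, 0, fun j => ?_, ?_⟩
  · by_cases h : j = i
    · subst h
      rw [Pi.single_eq_same, map_one, sub_self]
      exact MvPolynomial.isWeightedHomogeneous_one _ _
    · rw [Pi.single_eq_of_ne h, map_zero]
      exact MvPolynomial.isWeightedHomogeneous_zero _ _ _
  · rw [map_zero, smul_zero, add_zero, Finset.sum_eq_single i]
    · rw [Pi.single_eq_same, map_one, map_one]
      rfl
    · intro j _ h
      rw [Pi.single_eq_of_ne h, map_zero, map_zero]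
      rfl
    · intro h
      exact absurd (Finset.mem_univ i) h

theorem QQ.mul {k k' : ℤ} (j : Fin n) (h : k + sV p ((j : ℕ) + 1) = k') {z : (𝟙_ 𝒯)⟦k⟧ ⟶ Y}
    (hz : b.QQ M hY e y n k z) : b.QQ M hY e y n k' (T.mul M h (b.v j) z) := by
  obtain ⟨f, z', hf, hz⟩ := hz
  refine ⟨fun i => MvPolynomial.X j * f i, T.mul M h (b.v j) z', fun i => ?_, ?_⟩
  · rw [map_mul]
    have h1 : HK p (sV p ((j : ℕ) + 1)) (H609.rn p n (MvPolynomial.X j)) := by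
      rw [H609.rn, MvPolynomial.rename_X]
      exact MvPolynomial.isWeightedHomogeneous_X _ _ _
    have h2 := h1.mul (hf i)
    rwa [show sV p ((j : ℕ) + 1) + (k - e i) = k' - e i by omega] at h2
  · rw [← b.kk_v M hY j h z, hz, map_add, map_sum, map_nsmul, b.kk_v M hY j h z']
    congr 1
    refine Finset.sum_congr rfl fun i _ => ?_
    rw [map_mul, map_mul]
    have h1 : H609.rn p n (MvPolynomial.X j) = MvPolynomial.X (j : ℕ) := by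
      rw [H609.rn, MvPolynomial.rename_X]
    rw [h1]
    rfl

theorem QQ.comp {k : ℤ} (u : (𝟙_ 𝒯)⟦k⟧ ⟶ (𝟙_ 𝒯)⟦k⟧) {z : (𝟙_ 𝒯)⟦k⟧ ⟶ Y}
    (hz : b.QQ M hY e y n k z) : b.QQ M hY e y n k (u ≫ z) := by
  obtain ⟨c, z', h⟩ := b.exists_unit M hY u z
  rw [h]
  exact QQ.add b (QQ.zsmul b hz c) (QQ.p_smul b M hY e y k z')

/-- the product with `v_{j+1}`, up to isomorphisms -/
theorem QQ.tensor {k l : ℤ} (j : Fin n) {A : 𝒯} {v : A ⟶ R} (ε : (𝟙_ 𝒯)⟦sV p ((j : ℕ) + 1)⟧ ≅ A)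
    (hv : b.v j = ε.hom ≫ v) (i : (𝟙_ 𝒯)⟦l⟧ ≅ A ⊗ (𝟙_ 𝒯)⟦k⟧) {z : (𝟙_ 𝒯)⟦k⟧ ⟶ Y}
    (hz : b.QQ M hY e y n k z) : b.QQ M hY e y n l (i.hom ≫ (v ⊗ₘ z) ≫ M.act) := by
  let i' : (𝟙_ 𝒯)⟦l⟧ ≅ (𝟙_ 𝒯)⟦k + sV p ((j : ℕ) + 1)⟧ :=
    i ≪≫ whiskerRightIso ε.symm _ ≪≫ (sphAdd rfl).symm
  obtain rfl : l = k + sV p ((j : ℕ) + 1) := b.sphere_inj i'
  have h1 : i.hom ≫ (v ⊗ₘ z) ≫ M.act = i'.hom ≫ T.mul M rfl (b.v j) z := by
    have h2 : (ε.inv ▷ (𝟙_ 𝒯)⟦k⟧) ≫ ((ε.hom ≫ v) ⊗ₘ z) = v ⊗ₘ z := by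
      rw [tensorHom_def, MonoidalCategory.comp_whiskerRight]
      simp [tensorHom_def]
    rw [mul_eq, hv]
    simp only [i', Iso.trans_hom, Iso.symm_hom, whiskerRightIso_hom, Category.assoc,
      Iso.inv_hom_id_assoc]
    rw [reassoc_of% h2]
  rw [h1]
  exact QQ.comp b _ (QQ.mul b j rfl hz)

variable (M hY e y)

/-- **finite generation of `π_* Y`** -/
theorem fg_of_QQ (h : ∀ k z, b.QQ M hY e y n k z) : letI := b.mdl M hY
    ∃ (r : ℕ) (e : Fin r → ℤ) (y : Fin r → PiM Y), (∀ i, y i ∈ PiM.gr Y (e i)) ∧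
      ∀ k, ∀ z ∈ PiM.gr Y k, ∃ f : Fin r → MvPolynomial (Fin n) ℤ_[p],
        (∀ i, HK p (k - e i) (rename (fun i : Fin n => (i : ℕ)) (f i))) ∧
          z = ∑ i, rename (fun i : Fin n => (i : ℕ)) (f i) • y i := by
  letI := b.mdl M hY
  refine ⟨r, e, fun i => PiM.of Y (e i) (y i), fun i => ⟨y i, rfl⟩, ?_⟩
  refine H509.fg_of_mod (Mg := PiM.gr Y) (fun hf hz => b.kk_mem M hY hf hz) (dc_gr hY) e _
    (fun i => ⟨y i, rfl⟩) fun k z hz => ?_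
  obtain ⟨z, rfl⟩ := hz
  obtain ⟨f, z', hf, hz⟩ := h k z
  exact ⟨f, hf, _, ⟨z', rfl⟩, hz⟩

end QQ

end BPS

end Vale.Agent.P221.T
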