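import Mathlib.NumberTheory.Padics.RingHoms
import Mathlib.Algebra.DirectSum.Module
import Mathlib.RingTheory.Adjoin.Basic
import Mathlib.Algebra.MvPolynomial.Eval

/-!
# P221, part T (helper509): commuting operators on graded modules

* `Ops K A s` : commuting linear operators `v i : A k → A (k + s i)`;
* `Ops.kk : MvPolynomial ℕ K →+* AddMonoid.End (⨁ k, A k)`.
-/

open DirectSum MvPolynomial

namespace Vale.Agent.P221.T.H509

/-- commuting operators -/
structure Ops (K : Type) [CommRing K] (A : ℤ → Type) [∀ k, AddCommGroup (A k)]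
    [∀ k, Module K (A k)] (s : ℕ → ℤ) where
  /-- the operators -/
  v : ∀ (i : ℕ) {k k' : ℤ} (_ : k + s i = k'), A k →ₗ[K] A k'
  comm : ∀ (i j : ℕ) {k k₁ k₂ k' : ℤ} (h₁ : k + s i = k₁) (h₁' : k₁ + s j = k')
    (h₂ : k + s j = k₂) (h₂' : k₂ + s i = k') (y : A k), v j h₁' (v i h₁ y) = v i h₂' (v j h₂ y)

variable {K : Type} [CommRing K] {A B : ℤ → Type} [∀ k, AddCommGroup (A k)]
  [∀ k, Module K (A k)] [∀ k, AddCommGroup (B k)] [∀ k, Module K (B k)] {s : ℕ → ℤ}

namespace Ops

variable (O : Ops K A s)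

/-- `v i` on the sum -/
noncomputable def V (i : ℕ) : Module.End K (⨁ k, A k) :=
  DirectSum.toModule K ℤ (⨁ k, A k) fun k => (DirectSum.lof K ℤ A (k + s i)).comp (O.v i rfl)

theorem V_of (i : ℕ) {k k' : ℤ} (h : k + s i = k') (y : A k) :
    O.V i (DirectSum.of A k y) = DirectSum.of A k' (O.v i h y) := by
  subst h
  exact DirectSum.toModule_lof K k y

theorem V_comm (i j : ℕ) : O.V i * O.V j = O.V j * O.V i := by
  refine LinearMap.toAddMonoidHom_injective (DirectSum.addHom_ext fun k y => ?_)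
  change O.V i (O.V j (DirectSum.of A k y)) = O.V j (O.V i (DirectSum.of A k y))
  rw [O.V_of j rfl, O.V_of i rfl, O.V_of i rfl, O.V_of j (add_right_comm k (s i) (s j))]
  rw [O.comm j i rfl rfl rfl (add_right_comm k (s i) (s j))]

/-- the algebra generated by the operators -/
abbrev Alg : Type := Algebra.adjoin K (Set.range O.V)

noncomputable instance : CommRing O.Alg :=
  Algebra.adjoinCommRingOfComm K (by
    rintro _ ⟨i, rfl⟩ _ ⟨j, rfl⟩
    exact O.V_comm i j)

/-- the map from the polynomial ring -/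
noncomputable def aev : MvPolynomial ℕ K →ₐ[K] O.Alg :=
  MvPolynomial.aeval fun i => ⟨O.V i, Algebra.subset_adjoin ⟨i, rfl⟩⟩

/-- **the action of the polynomial ring** -/
noncomputable def kk : MvPolynomial ℕ K →+* AddMonoid.End (⨁ k, A k) :=
  (Module.toAddMonoidEnd (Module.End K (⨁ k, A k)) (⨁ k, A k)).comp
    ((Algebra.adjoin K (Set.range O.V)).val.toRingHom.comp O.aev.toRingHom)

theorem kk_apply (f : MvPolynomial ℕ K) (y : ⨁ k, A k) :
    O.kk f y = (O.aev f : Module.End K (⨁ k, A k)) y := rfl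

theorem kk_X (i : ℕ) (y : ⨁ k, A k) : O.kk (X i) y = O.V i y := by
  rw [kk_apply, aev, MvPolynomial.aeval_X]

theorem kk_X_of (i : ℕ) {k k' : ℤ} (h : k + s i = k') (y : A k) :
    O.kk (X i) (DirectSum.of A k y) = DirectSum.of A k' (O.v i h y) := by
  rw [kk_X, V_of O i h]

theorem kk_C (a : K) (y : ⨁ k, A k) : O.kk (C a) y = a • y := by
  rw [kk_apply, aev, MvPolynomial.aeval_C]
  rfl

theorem kk_C_of (a : K) {k : ℤ} (y : A k) :
    O.kk (C a) (DirectSum.of A k y) = DirectSum.of A k (a • y) := by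
  rw [kk_C]
  exact (DirectSum.lof K ℤ A k).map_smul a y |>.symm

/-- linear maps -/
theorem map_kk (O' : Ops K B s) (f : (⨁ k, A k) →+ ⨁ k, B k)
    (hC : ∀ (a : K) (k : ℤ) (y : A k), f (DirectSum.of A k (a • y)) = a • f (DirectSum.of A k y))
    (hv : ∀ i k (y : A k), f (O.kk (X i) (DirectSum.of A k y)) = O'.kk (X i) (f (DirectSum.of A k y)))
    (a : MvPolynomial ℕ K) (y : ⨁ k, A k) : f (O.kk a y) = O'.kk a (f y) := by
  induction a using MvPolynomial.induction_on generalizing y with
  | C a =>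
    rw [O.kk_C, O'.kk_C]
    induction y using DirectSum.induction_on with
    | zero => rw [smul_zero, map_zero, smul_zero]
    | of k y =>
      rw [← hC a k y]
      congr 1
      exact ((DirectSum.lof K ℤ A k).map_smul a y).symm
    | add y z hy hz => rw [smul_add, map_add, hy, hz, map_add, smul_add]
  | add a b ha hb =>
    rw [map_add, map_add]
    change f (O.kk a y + O.kk b y) = O'.kk a (f y) + O'.kk b (f y)
    rw [map_add, ha, hb]
  | mul_X a i ha =>
    rw [map_mul, map_mul]
    change f (O.kk a (O.kk (X i) y)) = O'.kk a (O'.kk (X i) (f y))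
    rw [ha]
    congr 1
    induction y using DirectSum.induction_on with
    | zero => simp only [map_zero]
    | of k y => exact hv i k y
    | add y z hy hz => simp only [map_add, hy, hz]

end Ops

end Vale.Agent.P221.T.H509
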